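import Mathlib

/-! P344: lower bounds for linear circuits computing the discrete Fourier transform. -/

namespace Vale.P344

/-- A gate of a linear circuit; the natural numbers are positions in the list of the values
computed so far. -/
inductive Gate
  | add (i j : ℕ)
  | sub (i j : ℕ)
  | smul (a : ℂ) (i : ℕ)

/-- The value of a gate, given the list of the values computed so far. -/
def Gate.eval {M : Type} [AddCommGroup M] [Module ℂ M] (vals : List M) : Gate → M
  | .add i j => vals.getD i 0 + vals.getD j 0
  | .sub i j => vals.getD i 0 - vals.getD j 0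
  | .smul a i => a • vals.getD i 0

/-- The list of all values computed by the circuit `C` started from the list `init`; every gate
appends its value. -/
def run {M : Type} [AddCommGroup M] [Module ℂ M] (init : List M) : List Gate → List M
  | [] => init
  | g :: C => run (init ++ [g.eval init]) C

/-- The `(j, k)` entry of the Fourier matrix `F_n`. -/
noncomputable def fourier (n : ℕ) (j k : Fin n) : ℂ :=
  Complex.exp (2 * Real.pi * Complex.I * ((j : ℕ) : ℂ) * ((k : ℕ) : ℂ) / (n : ℂ))

/-- The circuit `C` on the inputs `0, x_0, ..., x_(n-1)`, with output `j` at position `out j`,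
computes `F_n x` for every `x`. -/
def Computes (n : ℕ) (C : List Gate) (out : Fin n → ℕ) : Prop :=
  ∀ x : Fin n → ℂ, ∀ j : Fin n,
    (run (0 :: List.ofFn x) C).getD (out j) 0 = ∑ k, fourier n j k * x k

/-- The number of additions and subtractions. -/
def adds : List Gate → ℕ
  | [] => 0
  | .add _ _ :: C => adds C + 1
  | .sub _ _ :: C => adds C + 1
  | .smul _ _ :: C => adds C

/-- The number of scalar multiplications. -/
def muls : List Gate → ℕ
  | [] => 0
  | .add _ _ :: C => muls C
  | .sub _ _ :: C => muls C
  | .smul _ _ :: C => muls C + 1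

/-! ### module interface -/

/-- The values of the circuit as linear forms (coefficient vectors). -/
noncomputable def forms (n : ℕ) (C : List Gate) : List (Fin n → ℂ) :=
  run (0 :: List.ofFn (fun i : Fin n => (Pi.single i 1 : Fin n → ℂ))) C

/-- `u` is a multiple of `v` on the coordinates in `J`. -/
def Mul {n : ℕ} (J : Finset (Fin n)) (u v : Fin n → ℂ) : Prop :=
  ∃ c : ℂ, ∀ i ∈ J, u i = c * v i

/-- `u` is in the list `L` or a coordinate form with index in `J`. -/
def Av {n : ℕ} (J : Finset (Fin n)) (L : List (Fin n → ℂ)) (u : Fin n → ℂ) : Prop :=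
  u ∈ L ∨ ∃ i ∈ J, u = Pi.single i 1

/-- Normal form: every member of the list is, on `J`, a combination of two forms that are
available from the rest of the list (the head is the last gate). -/
inductive Valid {n : ℕ} (J : Finset (Fin n)) : List (Fin n → ℂ) → Prop
  | nil : Valid J []
  | cons (g : Fin n → ℂ) (L : List (Fin n → ℂ)) (u v : Fin n → ℂ) (a b : ℂ) :
      Valid J L → Av J L u → Av J L v → (∀ i ∈ J, g i = a * u i + b * v i) → Valid J (g :: L)

/-- FORM: the output positions hold the rows of `F_n`. -/
def StmtFORM : Prop :=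
  ∀ (n : ℕ) (C : List Gate) (out : Fin n → ℕ), Computes n C out →
    ∀ j : Fin n, (forms n C).getD (out j) 0 = fourier n j

/-- NF: normal form of a circuit: one member of the list for each addition or subtraction. -/
def StmtNF : Prop :=
  ∀ (n : ℕ) (C : List Gate), 1 ≤ n → ∃ L : List (Fin n → ℂ), Valid Finset.univ L ∧
    L.length = adds C ∧ ∀ p : ℕ, ∃ u, Av Finset.univ L u ∧ Mul Finset.univ ((forms n C).getD p 0) u

/-- ELIM: gate elimination. -/
def StmtELIM : Prop :=
  ∀ (n : ℕ) (J : Finset (Fin n)) (L : List (Fin n → ℂ)) (O : Set (Fin n → ℂ)), J.Nonempty →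
    Valid J L → (∀ o ∈ O, ∃ u, Av J L u ∧ Mul J o u) → (∀ o ∈ O, ∀ i ∈ J, o i ≠ 0) →
    (∀ i ∈ J, ∀ i' ∈ J, i ≠ i' → ∃ o ∈ O, ∃ o' ∈ O, o i * o' i' ≠ o i' * o' i) →
    2 * (J.card - 1) ≤ L.length

/-- ROWS: the bound on the number of additions. -/
def StmtROWS : Prop :=
  ∀ (n : ℕ) (L : List (Fin n → ℂ)), 2 ≤ n → Valid Finset.univ L →
    (∀ j : Fin n, ∃ u, Av Finset.univ L u ∧ Mul Finset.univ (fourier n j) u) →
    3 * n ≤ L.length + 3 + n / n.minFac

/-- SCAL: the bound on the number of scalar multiplications. -/
def StmtSCAL : Prop :=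
  ∀ (n : ℕ) (C : List Gate), 2 ≤ n → (∀ j : Fin n, ∃ p : ℕ, (forms n C).getD p 0 = fourier n j) →
    (n - 1) / 2 ≤ 2 * muls C

end Vale.P344
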