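import Vale.Agent.P344.Defs

/-! P344: module ELIM (helper5), gate elimination. -/

namespace Vale.P344.ELIM

open Finset

variable {n : ℕ}

open Classical in
/-- number of members of the list which are, on `J1`, a multiple of something available from the
rest -/
noncomputable def redc (J J1 : Finset (Fin n)) : List (Fin n → ℂ) → ℕ
  | [] => 0
  | g :: T => redc J J1 T + (if ∃ u, Av J T u ∧ Mul J1 g u then 1 else 0)

theorem redc_cons_le (J J1 : Finset (Fin n)) (g : Fin n → ℂ) (T : List (Fin n → ℂ)) :
    redc J J1 T ≤ redc J J1 (g :: T) := by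
  change redc J J1 T ≤ redc J J1 T + _
  exact Nat.le_add_right _ _

theorem redc_append_le (J J1 : Finset (Fin n)) (L0 T : List (Fin n → ℂ)) :
    redc J J1 T ≤ redc J J1 (L0 ++ T) := by
  induction L0 with
  | nil => exact le_rfl
  | cons g L0 ih => exact ih.trans (redc_cons_le J J1 g (L0 ++ T))

theorem redc_cons_of (J J1 : Finset (Fin n)) (g : Fin n → ℂ) (T : List (Fin n → ℂ))
    (h : ∃ u, Av J T u ∧ Mul J1 g u) : redc J J1 (g :: T) = redc J J1 T + 1 := by
  change redc J J1 T + _ = _
  rw [if_pos h]

theorem redc_cons_not (J J1 : Finset (Fin n)) (g : Fin n → ℂ) (T : List (Fin n → ℂ))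
    (h : ¬ ∃ u, Av J T u ∧ Mul J1 g u) : redc J J1 (g :: T) = redc J J1 T := by
  change redc J J1 T + _ = _
  rw [if_neg h, add_zero]

theorem Mul.trans' {J : Finset (Fin n)} {u v w : Fin n → ℂ} (h1 : Mul J u v) (h2 : Mul J v w) :
    Mul J u w := by
  obtain ⟨c, hc⟩ := h1
  obtain ⟨d, hd⟩ := h2
  exact ⟨c * d, fun i hi => by rw [hc i hi, hd i hi]; ring⟩

theorem Mul.refl' (J : Finset (Fin n)) (u : Fin n → ℂ) : Mul J u u :=
  ⟨1, fun i _ => by rw [one_mul]⟩

theorem Mul.mono' {J J1 : Finset (Fin n)} (hJ : J1 ⊆ J) {u v : Fin n → ℂ} (h : Mul J u v) :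
    Mul J1 u v := by
  obtain ⟨c, hc⟩ := h
  exact ⟨c, fun i hi => hc i (hJ hi)⟩

theorem Av.cons' {J : Finset (Fin n)} {T : List (Fin n → ℂ)} {u : Fin n → ℂ} (g : Fin n → ℂ)
    (h : Av J T u) : Av J (g :: T) u := by
  rcases h with h | h
  · exact Or.inl (List.mem_cons_of_mem _ h)
  · exact Or.inr h

/-- removing the redundant members -/
theorem red (J J1 : Finset (Fin n)) (hJ : J1 ⊆ J) (hne : J1.Nonempty) (L : List (Fin n → ℂ))
    (hL : Valid J L) : ∃ L1 : List (Fin n → ℂ), Valid J1 L1 ∧
      (∀ u, Av J L u → ∃ u', Av J1 L1 u' ∧ Mul J1 u u') ∧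
      L1.length + redc J J1 L ≤ L.length := by
  induction hL with
  | nil =>
    refine ⟨[], Valid.nil, ?_, by simp [redc]⟩
    intro u hu
    rcases hu with hu | ⟨i, hi, rfl⟩
    · exact absurd hu (List.not_mem_nil)
    · by_cases h : i ∈ J1
      · exact ⟨Pi.single i 1, Or.inr ⟨i, h, rfl⟩, Mul.refl' _ _⟩
      · obtain ⟨k, hk⟩ := hne
        refine ⟨Pi.single k 1, Or.inr ⟨k, hk, rfl⟩, 0, fun l hl => ?_⟩
        rw [zero_mul, Pi.single_eq_of_ne]
        intro e
        exact h (e ▸ hl)
  | cons g T u v a b hT hu hv hg ih =>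
    obtain ⟨T1, h1, h2, h3⟩ := ih
    by_cases hr : ∃ w, Av J T w ∧ Mul J1 g w
    · refine ⟨T1, h1, ?_, ?_⟩
      · intro x hx
        rcases hx with hx | hx
        · rcases List.mem_cons.1 hx with rfl | hx
          · obtain ⟨w, hw1, hw2⟩ := hr
            obtain ⟨w', hw3, hw4⟩ := h2 w hw1
            exact ⟨w', hw3, Mul.trans' hw2 hw4⟩
          · exact h2 x (Or.inl hx)
        · exact h2 x (Or.inr hx)
      · rw [redc_cons_of J J1 g T hr, List.length_cons]
        omega
    · obtain ⟨u', hu1, c, hu2⟩ := h2 u hu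
      obtain ⟨v', hv1, d, hv2⟩ := h2 v hv
      refine ⟨g :: T1, Valid.cons g T1 u' v' (a * c) (b * d) h1 hu1 hv1 ?_, ?_, ?_⟩
      · intro i hi
        rw [hg i (hJ hi), hu2 i hi, hv2 i hi]
        ring
      · intro x hx
        rcases hx with hx | hx
        · rcases List.mem_cons.1 hx with rfl | hx
          · exact ⟨x, Or.inl List.mem_cons_self, Mul.refl' _ _⟩
          · obtain ⟨x', hx1, hx2⟩ := h2 x (Or.inl hx)
            exact ⟨x', Av.cons' g hx1, hx2⟩
        · obtain ⟨x', hx1, hx2⟩ := h2 x (Or.inr hx)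
          exact ⟨x', Av.cons' g hx1, hx2⟩
      · rw [redc_cons_not J J1 g T hr, List.length_cons, List.length_cons]
        omega

/-- the first gate: either one more gate dies together with it, or the two columns are
proportional on all members -/
theorem use (J : Finset (Fin n)) (i j : Fin n) (hi : i ∈ J) (hj : j ∈ J) (hij : i ≠ j) (a b : ℂ)
    (g : Fin n → ℂ)
    (hg : ∀ k ∈ J, g k = a * (Pi.single i 1 : Fin n → ℂ) k + b * (Pi.single j 1 : Fin n → ℂ) k)
    (L0 : List (Fin n → ℂ)) (hL : Valid J (L0 ++ [g])) :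
    2 ≤ redc J (J.erase i) (L0 ++ [g]) ∨ 2 ≤ redc J (J.erase j) (L0 ++ [g]) ∨
      ∀ x ∈ L0 ++ [g], b * x i = a * x j := by
  have r1 : 1 ≤ redc J (J.erase i) [g] := by
    rw [redc_cons_of]
    · omega
    · refine ⟨Pi.single j 1, Or.inr ⟨j, hj, rfl⟩, b, fun k hk => ?_⟩
      rw [hg k (mem_of_mem_erase hk), Pi.single_eq_of_ne (ne_of_mem_erase hk), mul_zero, zero_add]
  have r2 : 1 ≤ redc J (J.erase j) [g] := by
    rw [redc_cons_of]
    · omega
    · refine ⟨Pi.single i 1, Or.inr ⟨i, hi, rfl⟩, a, fun k hk => ?_⟩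
      rw [hg k (mem_of_mem_erase hk), Pi.single_eq_of_ne (ne_of_mem_erase hk), mul_zero,
        add_zero]
  induction L0 with
  | nil =>
    right
    right
    intro x hx
    rw [List.nil_append, List.mem_singleton] at hx
    subst hx
    rw [hg i hi, hg j hj, Pi.single_eq_same, Pi.single_eq_same, Pi.single_eq_of_ne hij,
      Pi.single_eq_of_ne hij.symm]
    ring
  | cons g' L0 ih =>
    rw [List.cons_append] at hL ⊢
    cases hL with
    | cons _ _ u v a' b' hT hu hv hg' =>
      rcases ih hT with h | h | h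
      · exact Or.inl (h.trans (redc_cons_le _ _ _ _))
      · exact Or.inr (Or.inl (h.trans (redc_cons_le _ _ _ _)))
      · -- `u` or `v` is one of the two coordinate forms
        have key : ∀ w, Av J (L0 ++ [g]) w → w ≠ Pi.single i 1 → w ≠ Pi.single j 1 →
            b * w i = a * w j := by
          intro w hw h1 h2
          rcases hw with hw | ⟨k, hk, rfl⟩
          · exact h w hw
          · have hki : i ≠ k := fun e => h1 (by rw [e])
            have hkj : j ≠ k := fun e => h2 (by rw [e])
            rw [Pi.single_eq_of_ne hki, Pi.single_eq_of_ne hkj, mul_zero, mul_zero]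
        have s1 := redc_append_le J (J.erase i) L0 [g]
        have s2 := redc_append_le J (J.erase j) L0 [g]
        have kill : ∀ (k : Fin n) (w w' : Fin n → ℂ) (c d : ℂ), Av J (L0 ++ [g]) w' →
            w = Pi.single k 1 → (∀ l ∈ J, g' l = c * w l + d * w' l) →
            redc J (J.erase k) (g' :: (L0 ++ [g])) = redc J (J.erase k) (L0 ++ [g]) + 1 := by
          intro k w w' c d hw' hw hgg
          apply redc_cons_of
          refine ⟨w', hw', d, fun l hl => ?_⟩
          rw [hgg l (mem_of_mem_erase hl), hw, Pi.single_eq_of_ne (ne_of_mem_erase hl), mul_zero,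
            zero_add]
        by_cases c1 : u = Pi.single i 1
        · left
          rw [kill i u v a' b' hv c1 hg']
          omega
        by_cases c2 : u = Pi.single j 1
        · right
          left
          rw [kill j u v a' b' hv c2 hg']
          omega
        by_cases c3 : v = Pi.single i 1
        · left
          rw [kill i v u b' a' hu c3 (fun l hl => by rw [hg' l hl]; ring)]
          omega
        by_cases c4 : v = Pi.single j 1
        · right
          left
          rw [kill j v u b' a' hu c4 (fun l hl => by rw [hg' l hl]; ring)]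
          omega
        right
        right
        intro x hx
        rcases List.mem_cons.1 hx with rfl | hx
        · rw [hg' i hi, hg' j hj]
          have k1 := key u hu c1 c2
          have k2 := key v hv c3 c4
          linear_combination a' * k1 + b' * k2
        · exact h x hx

theorem valid_suffix (J : Finset (Fin n)) (L0 T : List (Fin n → ℂ)) (h : Valid J (L0 ++ T)) :
    Valid J T := by
  induction L0 with
  | nil => exact h
  | cons g L0 ih =>
    rw [List.cons_append] at h
    cases h with
    | cons _ _ u v a' b' hT hu hv hg' => exact ih hT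

theorem main (N : ℕ) : ∀ (J : Finset (Fin n)) (L : List (Fin n → ℂ)) (O : Set (Fin n → ℂ)),
    J.card + L.length ≤ N → J.Nonempty →
    Valid J L → (∀ o ∈ O, ∃ u, Av J L u ∧ Mul J o u) → (∀ o ∈ O, ∀ i ∈ J, o i ≠ 0) →
    (∀ i ∈ J, ∀ i' ∈ J, i ≠ i' → ∃ o ∈ O, ∃ o' ∈ O, o i * o' i' ≠ o i' * o' i) →
    2 * (J.card - 1) ≤ L.length := by
  induction N with
  | zero =>
    intro J L O hN hJ
    have := hJ.card_pos
    omega
  | succ N ih =>
    intro J L O hN hJ hV hO hnz hsep
    by_cases hJ1 : J.card ≤ 1
    · omega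
    push Not at hJ1
    by_cases hr : 1 ≤ redc J J L
    · obtain ⟨L1, h1, h2, h3⟩ := red J J (Finset.Subset.refl J) hJ L hV
      have h4 := ih J L1 O (by omega) hJ h1 (fun o ho => by
        obtain ⟨u, hu1, hu2⟩ := hO o ho
        obtain ⟨u', hu3, hu4⟩ := h2 u hu1
        exact ⟨u', hu3, Mul.trans' hu2 hu4⟩) hnz hsep
      omega
    have hr0 : redc J J L = 0 := by omega
    -- an output is not a multiple of a coordinate form
    have hcoord : ∀ o ∈ O, ∀ k ∈ J, ¬ Mul J o (Pi.single k 1) := by
      rintro o ho k hk ⟨c, hc⟩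
      obtain ⟨k', hk', hne⟩ := Finset.exists_mem_ne hJ1 k
      have h := hc k' hk'
      rw [Pi.single_eq_of_ne hne, mul_zero] at h
      exact hnz o ho k' hk' h
    -- the first gate
    rcases List.eq_nil_or_concat' L with hL | ⟨L0, g, hL⟩
    · exfalso
      subst hL
      obtain ⟨i, hi, i', hi', hne⟩ := Finset.one_lt_card.1 hJ1
      obtain ⟨o, ho, -⟩ := hsep i hi i' hi' hne
      obtain ⟨u, hu1, hu2⟩ := hO o ho
      rcases hu1 with hu1 | ⟨k, hk, rfl⟩
      · exact absurd hu1 List.not_mem_nil
      · exact hcoord o ho k hk hu2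
    subst hL
    have hVg : Valid J [g] := valid_suffix J L0 [g] hV
    have hrg : redc J J [g] = 0 := by
      have := redc_append_le J J L0 [g]
      omega
    cases hVg with
    | cons _ _ u v a b hT hu hv hg =>
      rcases hu with hu | ⟨i, hi, rfl⟩
      · exact absurd hu List.not_mem_nil
      rcases hv with hv | ⟨j, hj, rfl⟩
      · exact absurd hv List.not_mem_nil
      have hnr : ¬ ∃ u, Av J [] u ∧ Mul J g u := by
        intro h
        rw [redc_cons_of J J g [] h] at hrg
        omega
      have hij : i ≠ j := by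
        rintro rfl
        apply hnr
        refine ⟨Pi.single i 1, Or.inr ⟨i, hi, rfl⟩, a + b, fun k hk => ?_⟩
        rw [hg k hk]
        ring
      have hb : b ≠ 0 := by
        rintro rfl
        apply hnr
        refine ⟨Pi.single i 1, Or.inr ⟨i, hi, rfl⟩, a, fun k hk => ?_⟩
        rw [hg k hk]
        ring
      have fin : ∀ k ∈ J, 2 ≤ redc J (J.erase k) (L0 ++ [g]) →
          2 * (J.card - 1) ≤ (L0 ++ [g]).length := by
        intro k hk h2r
        have hcard : (J.erase k).card = J.card - 1 := Finset.card_erase_of_mem hk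
        have hne : (J.erase k).Nonempty := by
          rw [← Finset.card_pos, hcard]
          omega
        obtain ⟨L1, h1, h2, h3⟩ := red J (J.erase k) (Finset.erase_subset k J) hne _ hV
        have h4 := ih (J.erase k) L1 O (by omega) hne h1 (fun o ho => by
          obtain ⟨u, hu1, hu2⟩ := hO o ho
          obtain ⟨u', hu3, hu4⟩ := h2 u hu1
          exact ⟨u', hu3, Mul.trans' (Mul.mono' (Finset.erase_subset k J) hu2) hu4⟩)
          (fun o ho l hl => hnz o ho l (mem_of_mem_erase hl))
          (fun l hl l' hl' hne' => hsep l (mem_of_mem_erase hl) l' (mem_of_mem_erase hl') hne')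
        omega
      rcases use J i j hi hj hij a b g hg L0 hV with h | h | h
      · exact fin i hi h
      · exact fin j hj h
      · exfalso
        have hall : ∀ o ∈ O, b * o i = a * o j := by
          intro o ho
          obtain ⟨u, hu1, hu2⟩ := hO o ho
          rcases hu1 with hu1 | ⟨k, hk, rfl⟩
          · obtain ⟨c, hc⟩ := hu2
            rw [hc i hi, hc j hj]
            have := h u hu1
            linear_combination c * this
          · exact absurd hu2 (hcoord o ho k hk)
        obtain ⟨o, ho, o', ho', hoo⟩ := hsep i hi j hj hij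
        apply hoo
        have e1 := hall o ho
        have e2 := hall o' ho'
        apply mul_left_cancel₀ hb
        linear_combination o' j * e1 - o j * e2

theorem thm : StmtELIM := by
  intro n J L O hJ hV hO hnz hsep
  exact main (J.card + L.length) J L O le_rfl hJ hV hO hnz hsep

end Vale.P344.ELIM
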