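import Mathlib
import Vale.Agent.P344.Defs

open Vale.P344

namespace Vale.P344.EX

variable {M : Type} [AddCommGroup M] [Module ℂ M]

theorem run_append (init : List M) (C D : List Gate) :
    run init (C ++ D) = run (run init C) D := by
  induction C generalizing init with
  | nil => rfl
  | cons g C ih => exact ih _

theorem run_length (init : List M) (C : List Gate) :
    (run init C).length = init.length + C.length := by
  induction C generalizing init with
  | nil => rfl
  | cons g C ih =>
    simp only [run]
    rw [ih]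
    simp only [List.length_append, List.length_cons, List.length_nil]
    omega

theorem run_getD (init : List M) (C : List Gate) {i : ℕ} (hi : i < init.length) :
    (run init C).getD i 0 = init.getD i 0 := by
  induction C generalizing init with
  | nil => rfl
  | cons g C ih =>
    simp only [run]
    rw [ih _ (by simp only [List.length_append, List.length_cons, List.length_nil]; omega)]
    rw [List.getD_append _ _ _ _ hi]

/-- position `p` of the circuit `C` holds the function `f` of the inputs -/
def Has (n : ℕ) (C : List Gate) (p : ℕ) (f : (Fin n → ℂ) → ℂ) : Prop :=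
  p < 1 + n + C.length ∧ ∀ x : Fin n → ℂ, (run (0 :: List.ofFn x) C).getD p 0 = f x

theorem len {n : ℕ} (C : List Gate) (x : Fin n → ℂ) :
    (run (0 :: List.ofFn x) C).length = 1 + n + C.length := by
  rw [run_length, List.length_cons, List.length_ofFn]
  omega

theorem Has.mono {n : ℕ} {C : List Gate} {p : ℕ} {f : (Fin n → ℂ) → ℂ} (h : Has n C p f)
    (D : List Gate) : Has n (C ++ D) p f := by
  refine ⟨by rw [List.length_append]; have := h.1; omega, fun x => ?_⟩
  rw [run_append, run_getD _ _ (by rw [len]; exact h.1)]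
  exact h.2 x

theorem Has.zero (n : ℕ) (C : List Gate) : Has n C 0 (fun _ => 0) := by
  refine ⟨by omega, fun x => ?_⟩
  rw [run_getD _ _ (by simp)]
  rfl

theorem Has.input {n : ℕ} (C : List Gate) (k : Fin n) : Has n C (k + 1) (fun x => x k) := by
  refine ⟨by have := k.2; omega, fun x => ?_⟩
  rw [run_getD _ _ (by rw [List.length_cons, List.length_ofFn]; have := k.2; omega)]
  rw [List.getD_cons_succ, List.getD_eq_getElem _ _ (by rw [List.length_ofFn]; exact k.2)]
  simp

theorem push {n : ℕ} {C : List Gate} {g : Gate} {f : (Fin n → ℂ) → ℂ}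
    (h : ∀ x : Fin n → ℂ, g.eval (run (0 :: List.ofFn x) C) = f x) :
    Has n (C ++ [g]) (1 + n + C.length) f := by
  refine ⟨by rw [List.length_append, List.length_singleton]; omega, fun x => ?_⟩
  rw [run_append]
  simp only [run]
  rw [List.getD_append_right _ _ _ _ (by rw [len]), len, Nat.sub_self]
  rw [List.getD_cons_zero]
  exact h x

theorem Has.add {n : ℕ} {C : List Gate} {p q : ℕ} {f g : (Fin n → ℂ) → ℂ} (h : Has n C p f)
    (h' : Has n C q g) : Has n (C ++ [Gate.add p q]) (1 + n + C.length) (fun x => f x + g x) :=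
  push fun x => by
    show (run (0 :: List.ofFn x) C).getD p 0 + (run (0 :: List.ofFn x) C).getD q 0 = _
    rw [h.2 x, h'.2 x]

theorem Has.smul {n : ℕ} {C : List Gate} {p : ℕ} {f : (Fin n → ℂ) → ℂ} (h : Has n C p f)
    (a : ℂ) : Has n (C ++ [Gate.smul a p]) (1 + n + C.length) (fun x => a * f x) :=
  push fun x => by
    show a • (run (0 :: List.ofFn x) C).getD p 0 = _
    rw [h.2 x, smul_eq_mul]

theorem lin {n : ℕ} (c : Fin n → ℂ) (s : Finset (Fin n)) (C : List Gate) :
    ∃ D p, Has n (C ++ D) p (fun x => ∑ k ∈ s, c k * x k) := by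
  classical
  induction s using Finset.induction_on with
  | empty => exact ⟨[], 0, by simpa using Has.zero n C⟩
  | insert k s hk ih =>
    obtain ⟨D, p, h⟩ := ih
    have h1 := (Has.input (C ++ D) k).smul (c k)
    have h2 := h.mono [Gate.smul (c k) ((k : ℕ) + 1)]
    have h3 := h1.add h2
    refine ⟨D ++ ([Gate.smul (c k) ((k : ℕ) + 1)] ++
      [Gate.add (1 + n + (C ++ D).length) p]), 1 + n + (C ++ D ++ [Gate.smul (c k) ((k : ℕ) + 1)]).length, ?_⟩
    have e : C ++ (D ++ ([Gate.smul (c k) ((k : ℕ) + 1)] ++ [Gate.add (1 + n + (C ++ D).length) p])) =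
      C ++ D ++ [Gate.smul (c k) ((k : ℕ) + 1)] ++ [Gate.add (1 + n + (C ++ D).length) p] := by
      simp only [List.append_assoc]
    rw [e]
    simp only [Finset.sum_insert hk]
    exact h3

theorem all {n : ℕ} (A : Fin n → Fin n → ℂ) (s : Finset (Fin n)) :
    ∃ (C : List Gate) (out : Fin n → ℕ), ∀ j ∈ s, Has n C (out j) (fun x => ∑ k, A j k * x k) := by
  classical
  induction s using Finset.induction_on with
  | empty => exact ⟨[], fun _ => 0, by simp⟩
  | insert j s hj ih =>
    obtain ⟨C, out, h⟩ := ih
    obtain ⟨D, p, hp⟩ := lin (A j) Finset.univ C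
    refine ⟨C ++ D, Function.update out j p, ?_⟩
    intro i hi
    rcases Finset.mem_insert.1 hi with rfl | hi
    · rw [Function.update_self]; exact hp
    · have hij : i ≠ j := fun e => hj (e ▸ hi)
      rw [Function.update_of_ne hij]
      exact (h i hi).mono D

theorem thm : ∀ n : ℕ, 2 ≤ n → ∃ (C : List Gate) (out : Fin n → ℕ), Computes n C out := by
  intro n _
  obtain ⟨C, out, h⟩ := all (fourier n) Finset.univ
  exact ⟨C, out, fun x j => (h j (Finset.mem_univ j)).2 x⟩

end Vale.P344.EX
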