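import Vale.Agent.P344.Defs

/-! P344, module FORM: the circuit computes linear forms. -/

namespace Vale.P344.FORM

theorem getD_map {M N : Type} [AddCommGroup M] [Module ℂ M] [AddCommGroup N] [Module ℂ N]
    (f : M →ₗ[ℂ] N) (l : List M) (p : ℕ) : (l.map f).getD p 0 = f (l.getD p 0) := by
  rw [List.getD_eq_getElem?_getD, List.getD_eq_getElem?_getD, List.getElem?_map]
  cases l[p]? with
  | none => simp
  | some a => simp

theorem eval_map {M N : Type} [AddCommGroup M] [Module ℂ M] [AddCommGroup N] [Module ℂ N]
    (f : M →ₗ[ℂ] N) (l : List M) (g : Gate) : g.eval (l.map f) = f (g.eval l) := by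
  cases g with
  | add i j =>
    show (l.map f).getD i 0 + (l.map f).getD j 0 = f (l.getD i 0 + l.getD j 0)
    rw [getD_map, getD_map, map_add]
  | sub i j =>
    show (l.map f).getD i 0 - (l.map f).getD j 0 = f (l.getD i 0 - l.getD j 0)
    rw [getD_map, getD_map, map_sub]
  | smul a i =>
    show a • (l.map f).getD i 0 = f (a • l.getD i 0)
    rw [getD_map, map_smul]

theorem run_map {M N : Type} [AddCommGroup M] [Module ℂ M] [AddCommGroup N] [Module ℂ N]
    (f : M →ₗ[ℂ] N) (C : List Gate) (l : List M) : run (l.map f) C = (run l C).map f := by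
  induction C generalizing l with
  | nil => rfl
  | cons g C ih =>
    show run (l.map f ++ [g.eval (l.map f)]) C = (run (l ++ [g.eval l]) C).map f
    rw [← ih, List.map_append, eval_map]
    rfl

theorem thm : StmtFORM := by
  intro n C out h j
  funext k
  let f : (Fin n → ℂ) →ₗ[ℂ] ℂ := LinearMap.proj k
  have h1 := h (Pi.single k 1) j
  have h2 : (0 :: List.ofFn (Pi.single k (1 : ℂ) : Fin n → ℂ)) =
      (0 :: List.ofFn (fun i : Fin n => (Pi.single i 1 : Fin n → ℂ))).map f := by
    rw [List.map_cons, List.map_ofFn, map_zero]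
    congr 2
    funext i
    show (Pi.single k (1 : ℂ) : Fin n → ℂ) i = (Pi.single i 1 : Fin n → ℂ) k
    rw [Pi.single_apply, Pi.single_apply]
    by_cases hik : i = k
    · rw [if_pos hik, if_pos hik.symm]
    · rw [if_neg hik, if_neg (Ne.symm hik)]
  rw [h2, run_map, getD_map] at h1
  have h3 : f ((forms n C).getD (out j) 0) = fourier n j k := by
    refine h1.trans ?_
    rw [Finset.sum_eq_single k]
    · rw [Pi.single_eq_same, mul_one]
    · intro b _ hb
      rw [Pi.single_eq_of_ne hb, mul_zero]
    · intro hk
      exact absurd (Finset.mem_univ k) hk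
  exact h3

end Vale.P344.FORM
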