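import Mathlib
import Vale.Agent.P344.Defs

open Complex Module

namespace Vale.P344.SCAL

/-- the `r`-th row of the Fourier matrix -/
noncomputable def row (n r : ℕ) (j : Fin n) : ℂ := Complex.exp (2 * Real.pi * I / n) ^ (r * (j : ℕ))

theorem prim {n : ℕ} (hn : n ≠ 0) : IsPrimitiveRoot (Complex.exp (2 * Real.pi * I / n)) n :=
  Complex.isPrimitiveRoot_exp n hn

theorem row_indep {n : ℕ} (hn : n ≠ 0) :
    LinearIndependent ℂ (fun r : Fin n => row n r) := by
  have hinj : Function.Injective
      (fun r : Fin n => Complex.exp (2 * Real.pi * I / n) ^ (r : ℕ)) := by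
    intro a b hab
    exact Fin.ext ((prim hn).pow_inj a.2 b.2 hab)
  have hdet := Matrix.det_vandermonde_ne_zero_iff.2 hinj
  have h := Matrix.linearIndependent_rows_of_det_ne_zero hdet
  have e : (fun r : Fin n => row n r) = fun i => Matrix.vandermonde
      (fun r : Fin n => Complex.exp (2 * Real.pi * I / n) ^ (r : ℕ)) i := by
    ext r j
    simp [row, Matrix.vandermonde, pow_mul]
  rw [e]
  exact h

theorem diff_indep {n : ℕ} (hn : n ≠ 0) :
    LinearIndependent ℂ (fun r : Fin ((n - 1) / 2) => row n (r + 1) - row n (n - (r + 1))) := by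
  have h := row_indep hn
  rw [Fintype.linearIndependent_iff] at h ⊢
  intro c hc t
  have hlt : ∀ r : Fin ((n - 1) / 2), (r : ℕ) + 1 < n := fun r => by have := r.2; omega
  have hlt' : ∀ r : Fin ((n - 1) / 2), n - ((r : ℕ) + 1) < n := fun r => by have := r.2; omega
  let e : Fin n → ℂ := fun i => ∑ r : Fin ((n - 1) / 2),
    c r * ((if i = ⟨(r : ℕ) + 1, hlt r⟩ then 1 else 0) -
      (if i = ⟨n - ((r : ℕ) + 1), hlt' r⟩ then 1 else 0))
  have he : ∑ i, e i • row n i = 0 := by
    rw [← hc]
    simp only [e, Finset.sum_smul]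
    rw [Finset.sum_comm]
    refine Finset.sum_congr rfl fun r _ => ?_
    simp only [mul_sub, sub_smul, mul_ite, mul_one, mul_zero, ite_smul, zero_smul,
      Finset.sum_sub_distrib, Finset.sum_ite_eq', Finset.mem_univ, if_true, smul_sub]
  have h1 := h e he ⟨(t : ℕ) + 1, hlt t⟩
  simp only [e] at h1
  rw [Finset.sum_eq_single t] at h1
  · have h2 : ¬ ((⟨(t : ℕ) + 1, hlt t⟩ : Fin n) = ⟨n - ((t : ℕ) + 1), hlt' t⟩) := by
      intro h3
      have h4 := congrArg Fin.val h3
      simp only at h4
      have := t.2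
      omega
    rw [if_pos rfl, if_neg h2] at h1
    simpa using h1
  · intro r _ hr
    have h2 : ¬ ((⟨(t : ℕ) + 1, hlt t⟩ : Fin n) = ⟨(r : ℕ) + 1, hlt r⟩) := by
      intro h3
      have h4 := congrArg Fin.val h3
      simp only at h4
      exact hr (Fin.ext (by omega))
    have h3 : ¬ ((⟨(t : ℕ) + 1, hlt t⟩ : Fin n) = ⟨n - ((r : ℕ) + 1), hlt' r⟩) := by
      intro h3
      have h4 := congrArg Fin.val h3
      simp only at h4
      have := t.2
      have := r.2
      omega
    rw [if_neg h2, if_neg h3]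
    simp
  · intro h2
    exact absurd (Finset.mem_univ t) h2

theorem row_conj {n r : ℕ} (hr : r ≤ n) (hn : n ≠ 0) (j : Fin n) :
    (starRingEnd ℂ) (row n r j) = row n (n - r) j := by
  have hp := prim hn
  set ζ := Complex.exp (2 * Real.pi * I / n) with hζ
  have hz0 : ζ ≠ 0 := Complex.exp_ne_zero _
  have hc : (starRingEnd ℂ) ζ = ζ⁻¹ := by
    rw [hζ, ← Complex.exp_conj, ← Complex.exp_neg]
    congr 1
    simp only [map_div₀, map_mul, Complex.conj_ofReal, Complex.conj_I, map_ofNat, map_natCast]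
    ring
  rw [row, row, map_pow, ← hζ, hc, inv_pow]
  symm
  apply eq_inv_of_mul_eq_one_left
  rw [← pow_add, ← add_mul, Nat.sub_add_cancel hr, pow_mul, hp.pow_eq_one, one_pow]

theorem conj_mem_span {n s : ℕ} (g : Fin s → (Fin n → ℂ)) {w : Fin n → ℂ}
    (hw : w ∈ Submodule.span ℂ (Set.range g)) :
    (fun j => (starRingEnd ℂ) (w j)) ∈
      Submodule.span ℂ (Set.range fun i => fun j => (starRingEnd ℂ) (g i j)) := by
  induction hw using Submodule.span_induction with
  | mem x hx =>
    obtain ⟨i, rfl⟩ := hx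
    exact Submodule.subset_span ⟨i, rfl⟩
  | zero =>
    have : (fun j : Fin n => (starRingEnd ℂ) ((0 : Fin n → ℂ) j)) = 0 := by
      ext j; simp
    rw [this]; exact Submodule.zero_mem _
  | add x y _ _ hx hy =>
    have : (fun j => (starRingEnd ℂ) ((x + y) j)) =
        (fun j => (starRingEnd ℂ) (x j)) + fun j => (starRingEnd ℂ) (y j) := by
      ext j; simp
    rw [this]; exact Submodule.add_mem _ hx hy
  | smul a x _ hx =>
    have : (fun j => (starRingEnd ℂ) ((a • x) j)) =
        (starRingEnd ℂ a) • fun j => (starRingEnd ℂ) (x j) := by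
      ext j; simp
    rw [this]; exact Submodule.smul_mem _ _ hx

/-- if all rows of the Fourier matrix are real vectors plus vectors of an `s`-generated space,
then `(n-1)/2 ≤ 2 s` -/
theorem scal_bound {n s : ℕ} (hn : n ≠ 0) (g : Fin s → (Fin n → ℂ))
    (h : ∀ r < n, ∃ (a : Fin n → ℝ) (w : Fin n → ℂ), w ∈ Submodule.span ℂ (Set.range g) ∧
      ∀ j, row n r j = a j + w j) : (n - 1) / 2 ≤ 2 * s := by
  let g' : Fin s → (Fin n → ℂ) := fun i => fun j => (starRingEnd ℂ) (g i j)
  let G : Fin s ⊕ Fin s → (Fin n → ℂ) := Sum.elim g g'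
  have hG : Set.range G = Set.range g ∪ Set.range g' := Set.Sum.elim_range g g'
  have hmem : ∀ r : Fin ((n - 1) / 2),
      row n (r + 1) - row n (n - (r + 1)) ∈ Submodule.span ℂ (Set.range G) := by
    intro r
    have hr := r.2
    obtain ⟨a, w, hw, haw⟩ := h (r + 1) (by omega)
    have h1 : row n (r + 1) - row n (n - (r + 1)) = w - fun j => (starRingEnd ℂ) (w j) := by
      ext j
      rw [Pi.sub_apply, Pi.sub_apply, ← row_conj (by omega) hn j, haw j]
      simp
    rw [h1, hG]
    refine Submodule.sub_mem _ ?_ ?_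
    · exact Submodule.span_mono Set.subset_union_left hw
    · exact Submodule.span_mono Set.subset_union_right (conj_mem_span g hw)
  have hli := diff_indep hn
  have h1 := linearIndependent_iff_card_le_finrank_span.1 hli
  have h2 : Submodule.span ℂ (Set.range fun r : Fin ((n - 1) / 2) =>
      row n (r + 1) - row n (n - (r + 1))) ≤ Submodule.span ℂ (Set.range G) := by
    rw [Submodule.span_le]
    rintro _ ⟨r, rfl⟩
    exact hmem r
  have h3 := Submodule.finrank_mono h2
  have h4 : finrank ℂ (Submodule.span ℂ (Set.range G)) ≤ Fintype.card (Fin s ⊕ Fin s) :=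
    finrank_range_le_card G
  have h5 : Fintype.card (Fin ((n - 1) / 2)) ≤ Fintype.card (Fin s ⊕ Fin s) :=
    h1.trans (h3.trans h4)
  simp only [Fintype.card_fin, Fintype.card_sum] at h5
  omega



open Vale.P344

/-- real vector plus a vector of the span of `S` -/
def RW {n : ℕ} (S : Finset (Fin n → ℂ)) (v : Fin n → ℂ) : Prop :=
  ∃ (a : Fin n → ℝ) (w : Fin n → ℂ), w ∈ Submodule.span ℂ (S : Set (Fin n → ℂ)) ∧
    ∀ j, v j = a j + w j

theorem RW.zero {n : ℕ} (S : Finset (Fin n → ℂ)) : RW S 0 :=
  ⟨0, 0, Submodule.zero_mem _, fun j => by simp⟩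

theorem RW.mono {n : ℕ} {S S' : Finset (Fin n → ℂ)} (h : S ⊆ S') {v : Fin n → ℂ} (hv : RW S v) :
    RW S' v := by
  obtain ⟨a, w, hw, he⟩ := hv
  exact ⟨a, w, Submodule.span_mono (by exact_mod_cast h) hw, he⟩

theorem RW.add {n : ℕ} {S : Finset (Fin n → ℂ)} {u v : Fin n → ℂ} (hu : RW S u) (hv : RW S v) :
    RW S (u + v) := by
  obtain ⟨a, w, hw, he⟩ := hu
  obtain ⟨a', w', hw', he'⟩ := hv
  refine ⟨a + a', w + w', Submodule.add_mem _ hw hw', fun j => ?_⟩
  rw [Pi.add_apply, he, he', Pi.add_apply, Pi.add_apply]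
  push_cast
  ring

theorem RW.sub {n : ℕ} {S : Finset (Fin n → ℂ)} {u v : Fin n → ℂ} (hu : RW S u) (hv : RW S v) :
    RW S (u - v) := by
  obtain ⟨a, w, hw, he⟩ := hu
  obtain ⟨a', w', hw', he'⟩ := hv
  refine ⟨a - a', w - w', Submodule.sub_mem _ hw hw', fun j => ?_⟩
  rw [Pi.sub_apply, he, he', Pi.sub_apply, Pi.sub_apply]
  push_cast
  ring

theorem RW.getD {n : ℕ} {S : Finset (Fin n → ℂ)} {l : List (Fin n → ℂ)} (h : ∀ v ∈ l, RW S v)
    (i : ℕ) : RW S (l.getD i 0) := by
  rcases lt_or_ge i l.length with hi | hi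
  · rw [List.getD_eq_getElem _ _ hi]
    exact h _ (List.getElem_mem hi)
  · rw [List.getD_eq_default _ _ hi]
    exact RW.zero S

theorem RW.run {n : ℕ} (C : List Gate) : ∀ (init : List (Fin n → ℂ)) (S : Finset (Fin n → ℂ)),
    (∀ v ∈ init, RW S v) → ∃ S' : Finset (Fin n → ℂ), S'.card ≤ S.card + muls C ∧
      ∀ v ∈ run init C, RW S' v := by
  classical
  induction C with
  | nil =>
    intro init S h
    exact ⟨S, by simp [muls], h⟩
  | cons g C ih =>
    intro init S h
    cases g with
    | add i j =>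
      obtain ⟨S', h1, h2⟩ := ih (init ++ [(Gate.add i j).eval init]) S (by
        intro v hv
        rcases List.mem_append.1 hv with hv | hv
        · exact h v hv
        · rw [List.mem_singleton.1 hv]
          exact (RW.getD h i).add (RW.getD h j))
      exact ⟨S', by simpa [muls] using h1, h2⟩
    | sub i j =>
      obtain ⟨S', h1, h2⟩ := ih (init ++ [(Gate.sub i j).eval init]) S (by
        intro v hv
        rcases List.mem_append.1 hv with hv | hv
        · exact h v hv
        · rw [List.mem_singleton.1 hv]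
          exact (RW.getD h i).sub (RW.getD h j))
      exact ⟨S', by simpa [muls] using h1, h2⟩
    | smul a i =>
      obtain ⟨S', h1, h2⟩ := ih (init ++ [(Gate.smul a i).eval init])
        (insert ((Gate.smul a i).eval init) S) (by
        intro v hv
        rcases List.mem_append.1 hv with hv | hv
        · exact (h v hv).mono (Finset.subset_insert _ _)
        · rw [List.mem_singleton.1 hv]
          refine ⟨0, (Gate.smul a i).eval init, Submodule.subset_span ?_, fun j => by simp⟩
          simp)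
      refine ⟨S', ?_, h2⟩
      have h3 := Finset.card_insert_le ((Gate.smul a i).eval init) S
      simp only [muls]
      omega

theorem row_eq {n : ℕ} (r j : Fin n) : row n r j = fourier n r j := by
  rw [row, fourier, ← Complex.exp_nat_mul]
  congr 1
  push_cast
  ring

theorem thm : StmtSCAL := by
  intro n C hn hout
  classical
  obtain ⟨S, hS, hrun⟩ := RW.run C
    (0 :: List.ofFn (fun i : Fin n => (Pi.single i 1 : Fin n → ℂ))) ∅ (by
      intro v hv
      rcases List.mem_cons.1 hv with rfl | hv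
      · exact RW.zero _
      · obtain ⟨i, rfl⟩ := List.mem_ofFn.1 hv
        refine ⟨Pi.single i 1, 0, Submodule.zero_mem _, fun j => ?_⟩
        by_cases hij : j = i
        · subst hij; simp
        · simp [Pi.single_eq_of_ne hij])
  rw [Finset.card_empty, zero_add] at hS
  let e := S.equivFin
  let g : Fin S.card → (Fin n → ℂ) := fun i => (e.symm i : Fin n → ℂ)
  have hg : Set.range g = (S : Set (Fin n → ℂ)) := by
    ext v
    constructor
    · rintro ⟨i, rfl⟩
      exact (e.symm i).2
    · intro hv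
      exact ⟨e ⟨v, hv⟩, by simp [g]⟩
  have h1 := scal_bound (n := n) (by omega) g (by
    intro r hr
    obtain ⟨p, hp⟩ := hout ⟨r, hr⟩
    obtain ⟨a, w, hw, he⟩ := RW.getD hrun p
    refine ⟨a, w, by rw [hg]; exact hw, fun j => ?_⟩
    have h2 := he j
    have h3 : (run (0 :: List.ofFn (fun i : Fin n => (Pi.single i 1 : Fin n → ℂ))) C).getD p 0 =
      fourier n ⟨r, hr⟩ := hp
    rw [h3] at h2
    rw [← h2]
    exact row_eq ⟨r, hr⟩ j)
  omega

end Vale.P344.SCAL
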