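import Mathlib
import Vale.Agent.P344.Defs
import Vale.Agent.P344.SCAL

open Vale.P344 Module Polynomial

namespace Vale.P344.GAL

/-- integer vector plus a vector of the span of `S` -/
def RZ {n : ℕ} (S : Finset (Fin n → ℂ)) (v : Fin n → ℂ) : Prop :=
  ∃ (a : Fin n → ℤ) (w : Fin n → ℂ), w ∈ Submodule.span ℂ (S : Set (Fin n → ℂ)) ∧
    ∀ j, v j = a j + w j

theorem RZ.zero {n : ℕ} (S : Finset (Fin n → ℂ)) : RZ S 0 :=
  ⟨0, 0, Submodule.zero_mem _, fun j => by simp⟩

theorem RZ.mono {n : ℕ} {S S' : Finset (Fin n → ℂ)} (h : S ⊆ S') {v : Fin n → ℂ} (hv : RZ S v) :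
    RZ S' v := by
  obtain ⟨a, w, hw, he⟩ := hv
  exact ⟨a, w, Submodule.span_mono (by exact_mod_cast h) hw, he⟩

theorem RZ.add {n : ℕ} {S : Finset (Fin n → ℂ)} {u v : Fin n → ℂ} (hu : RZ S u) (hv : RZ S v) :
    RZ S (u + v) := by
  obtain ⟨a, w, hw, he⟩ := hu
  obtain ⟨a', w', hw', he'⟩ := hv
  refine ⟨a + a', w + w', Submodule.add_mem _ hw hw', fun j => ?_⟩
  rw [Pi.add_apply, he, he', Pi.add_apply, Pi.add_apply]
  push_cast
  ring

theorem RZ.sub {n : ℕ} {S : Finset (Fin n → ℂ)} {u v : Fin n → ℂ} (hu : RZ S u) (hv : RZ S v) :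
    RZ S (u - v) := by
  obtain ⟨a, w, hw, he⟩ := hu
  obtain ⟨a', w', hw', he'⟩ := hv
  refine ⟨a - a', w - w', Submodule.sub_mem _ hw hw', fun j => ?_⟩
  rw [Pi.sub_apply, he, he', Pi.sub_apply, Pi.sub_apply]
  push_cast
  ring

theorem RZ.getD {n : ℕ} {S : Finset (Fin n → ℂ)} {l : List (Fin n → ℂ)} (h : ∀ v ∈ l, RZ S v)
    (i : ℕ) : RZ S (l.getD i 0) := by
  rcases lt_or_ge i l.length with hi | hi
  · rw [List.getD_eq_getElem _ _ hi]
    exact h _ (List.getElem_mem hi)
  · rw [List.getD_eq_default _ _ hi]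
    exact RZ.zero S

theorem RZ.run {n : ℕ} (C : List Gate) : ∀ (init : List (Fin n → ℂ)) (S : Finset (Fin n → ℂ)),
    (∀ v ∈ init, RZ S v) → ∃ S' : Finset (Fin n → ℂ), S'.card ≤ S.card + muls C ∧
      ∀ v ∈ run init C, RZ S' v := by
  classical
  induction C with
  | nil =>
    intro init S h
    exact ⟨S, by simp [muls], h⟩
  | cons g C ih =>
    intro init S h
    cases g with
    | add i j =>
      obtain ⟨S', h1, h2⟩ := ih (init ++ [(Gate.add i j).eval init]) S (by
        intro v hv
        rcases List.mem_append.1 hv with hv | hv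
        · exact h v hv
        · rw [List.mem_singleton.1 hv]
          exact (RZ.getD h i).add (RZ.getD h j))
      exact ⟨S', by simpa [muls] using h1, h2⟩
    | sub i j =>
      obtain ⟨S', h1, h2⟩ := ih (init ++ [(Gate.sub i j).eval init]) S (by
        intro v hv
        rcases List.mem_append.1 hv with hv | hv
        · exact h v hv
        · rw [List.mem_singleton.1 hv]
          exact (RZ.getD h i).sub (RZ.getD h j))
      exact ⟨S', by simpa [muls] using h1, h2⟩
    | smul a i =>
      obtain ⟨S', h1, h2⟩ := ih (init ++ [(Gate.smul a i).eval init])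
        (insert ((Gate.smul a i).eval init) S) (by
        intro v hv
        rcases List.mem_append.1 hv with hv | hv
        · exact (h v hv).mono (Finset.subset_insert _ _)
        · rw [List.mem_singleton.1 hv]
          refine ⟨0, (Gate.smul a i).eval init, Submodule.subset_span ?_, fun j => by simp⟩
          simp)
      refine ⟨S', ?_, h2⟩
      have h3 := Finset.card_insert_le ((Gate.smul a i).eval init) S
      simp only [muls]
      omega

/-- powers of a primitive root: the rows are linearly independent -/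
theorem rows_indep {K : Type} [Field K] {n : ℕ} {z : K} (hz : IsPrimitiveRoot z n) :
    LinearIndependent K (fun (r : Fin n) (j : Fin n) => z ^ ((r : ℕ) * (j : ℕ))) := by
  have hinj : Function.Injective (fun r : Fin n => z ^ (r : ℕ)) := by
    intro a b hab
    exact Fin.ext (hz.pow_inj a.2 b.2 hab)
  have hdet := Matrix.det_vandermonde_ne_zero_iff.2 hinj
  have h := Matrix.linearIndependent_rows_of_det_ne_zero hdet
  have e : (fun (r : Fin n) (j : Fin n) => z ^ ((r : ℕ) * (j : ℕ))) =
      fun i => Matrix.vandermonde (fun r : Fin n => z ^ (r : ℕ)) i := by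
    ext r j
    simp [Matrix.vandermonde, pow_mul]
  rw [e]
  exact h

/-- the abstract bound over the cyclotomic field -/
theorem core {K : Type} [Field K] [Algebra K ℂ] {n s : ℕ} {z : K}
    (hz : IsPrimitiveRoot z n) (σ : K →+* K) (a : ℕ) (hσ : σ z = z ^ a)
    (S : Finset (Fin n → ℂ)) (hS : S.card ≤ s) (A : ℕ → Fin n → ℤ)
    (hA : ∀ r < n, (fun j : Fin n => algebraMap K ℂ (z ^ (r * (j : ℕ)) - (A r j : K))) ∈
      Submodule.span ℂ (S : Set (Fin n → ℂ)))
    (T : Finset ℕ) (hT : ∀ r < n, ∃ t ∈ T, t < n ∧ ∃ k : ℕ, r = (a ^ k * t) % n) :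
    n ≤ 2 * s + T.card := by
  classical
  have hn1 : z ^ n = 1 := hz.pow_eq_one
  let R : ℕ → Fin n → K := fun r j => z ^ (r * (j : ℕ))
  have hRmod : ∀ r, R (r % n) = R r := by
    intro r
    ext j
    have h1 : z ^ (r % n) = z ^ r := by
      conv_rhs => rw [← Nat.div_add_mod r n, pow_add, pow_mul, hn1, one_pow, one_mul]
    simp only [R]
    rw [pow_mul, h1, ← pow_mul]
  let ω : Fin n → Fin n → K := fun r j => z ^ ((r : ℕ) * (j : ℕ)) - (A r j : K)
  obtain ⟨b, hbsub, hbspan, hbli⟩ := exists_linearIndependent K (Set.range ω)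
  have hbfin : b.Finite := (Set.finite_range ω).subset hbsub
  have : Finite b := hbfin
  obtain ⟨hft⟩ := nonempty_fintype b
  -- descent
  have hli : LinearIndependent ℂ (fun i : b => algebraMap K ℂ ∘ (i : Fin n → K)) :=
    linearIndependent_algebraMap_comp_iff.2 hbli
  have hcard : Fintype.card b ≤ s := by
    have h1 : Submodule.span ℂ (Set.range fun i : b => algebraMap K ℂ ∘ (i : Fin n → K)) ≤
        Submodule.span ℂ (S : Set (Fin n → ℂ)) := by
      rw [Submodule.span_le]
      rintro _ ⟨i, rfl⟩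
      obtain ⟨r, hr⟩ := hbsub i.2
      have h2 := hA r r.2
      have h3 : (fun j : Fin n => algebraMap K ℂ (z ^ ((r : ℕ) * (j : ℕ)) - (A r j : K))) =
          algebraMap K ℂ ∘ (i : Fin n → K) := by
        rw [← hr]; rfl
      rw [h3] at h2
      exact h2
    have h2 := linearIndependent_iff_card_le_finrank_span.1 hli
    have h3 := Submodule.finrank_mono h1
    have h4 : finrank ℂ (Submodule.span ℂ (S : Set (Fin n → ℂ))) ≤ S.card :=
      finrank_span_finset_le_card S
    change _ ≤ finrank ℂ _ at h2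
    omega
  -- the conjugate family
  let B : b ⊕ b → (Fin n → K) := Sum.elim (fun i => (i : Fin n → K)) (fun i => fun j => σ ((i : Fin n → K) j))
  have hB : Set.range B = b ∪ Set.range (fun i : b => fun j => σ ((i : Fin n → K) j)) := by
    rw [Set.Sum.elim_range, Subtype.range_coe]
  have hconj : ∀ u ∈ Submodule.span K b, (fun j => σ (u j)) ∈
      Submodule.span K (Set.range (fun i : b => fun j => σ ((i : Fin n → K) j))) := by
    intro u hu
    induction hu using Submodule.span_induction with
    | mem x hx => exact Submodule.subset_span ⟨⟨x, hx⟩, rfl⟩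
    | zero =>
      have : (fun j : Fin n => σ ((0 : Fin n → K) j)) = 0 := by ext j; simp
      rw [this]; exact Submodule.zero_mem _
    | add x y _ _ hx hy =>
      have : (fun j => σ ((x + y) j)) = (fun j => σ (x j)) + fun j => σ (y j) := by ext j; simp
      rw [this]; exact Submodule.add_mem _ hx hy
    | smul c x _ hx =>
      have : (fun j => σ ((c • x) j)) = σ c • fun j => σ (x j) := by ext j; simp
      rw [this]; exact Submodule.smul_mem _ _ hx
  have hdiff : ∀ r < n, R r - R (a * r) ∈ Submodule.span K (Set.range B) := by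
    intro r hr
    have h1 : ω ⟨r, hr⟩ ∈ Submodule.span K b := by
      rw [hbspan]; exact Submodule.subset_span ⟨_, rfl⟩
    have h2 : R r - R (a * r) = ω ⟨r, hr⟩ - fun j => σ (ω ⟨r, hr⟩ j) := by
      ext j
      simp only [R, ω, Pi.sub_apply, map_sub, map_pow, hσ, map_intCast]
      rw [← pow_mul, mul_assoc]
      ring
    rw [h2, hB]
    exact Submodule.sub_mem _ (Submodule.span_mono Set.subset_union_left h1)
      (Submodule.span_mono Set.subset_union_right (hconj _ h1))
  let Q : (b ⊕ b) ⊕ T → (Fin n → K) := Sum.elim B (fun t => R t)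
  have hBQ : Submodule.span K (Set.range B) ≤ Submodule.span K (Set.range Q) := by
    apply Submodule.span_mono
    have hQ : Set.range Q = Set.range B ∪ Set.range (fun t : T => R t) := Set.Sum.elim_range _ _
    rw [hQ]
    exact Set.subset_union_left
  have hTQ : ∀ t ∈ T, R t ∈ Submodule.span K (Set.range Q) := by
    intro t ht
    exact Submodule.subset_span ⟨Sum.inr ⟨t, ht⟩, rfl⟩
  have hall : ∀ k t, t ∈ T → t < n → R ((a ^ k * t) % n) ∈ Submodule.span K (Set.range Q) := by
    intro k t ht htn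
    induction k with
    | zero =>
      rw [pow_zero, one_mul, hRmod]
      exact hTQ t ht
    | succ k ih =>
      have hlt : (a ^ k * t) % n < n := Nat.mod_lt _ (by omega)
      have h1 := hBQ (hdiff _ hlt)
      have h2 := Submodule.sub_mem _ ih h1
      have h3 : R ((a ^ (k + 1) * t) % n) = R (a * ((a ^ k * t) % n)) := by
        rw [← hRmod (a * ((a ^ k * t) % n)), Nat.mul_mod_mod]
        congr 2
        ring
      rw [h3]
      have h4 : R ((a ^ k * t) % n) - (R ((a ^ k * t) % n) - R (a * ((a ^ k * t) % n))) =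
        R (a * ((a ^ k * t) % n)) := by abel
      rw [h4] at h2
      exact h2
  have hRall : ∀ r : Fin n, (fun j : Fin n => z ^ ((r : ℕ) * (j : ℕ))) ∈
      Submodule.span K (Set.range Q) := by
    intro r
    obtain ⟨t, ht, htn, k, hk⟩ := hT r r.2
    have h1 := hall k t ht htn
    rw [← hk] at h1
    exact h1
  have h1 := linearIndependent_iff_card_le_finrank_span.1 (rows_indep hz)
  have h2 : Submodule.span K (Set.range fun (r : Fin n) (j : Fin n) => z ^ ((r : ℕ) * (j : ℕ))) ≤
      Submodule.span K (Set.range Q) := by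
    rw [Submodule.span_le]
    rintro _ ⟨r, rfl⟩
    exact hRall r
  have h3 := Submodule.finrank_mono h2
  have h4 : finrank K (Submodule.span K (Set.range Q)) ≤ Fintype.card ((b ⊕ b) ⊕ T) :=
    finrank_range_le_card Q
  have h5 : Fintype.card (Fin n) ≤ Fintype.card ((b ⊕ b) ⊕ T) := h1.trans (h3.trans h4)
  simp only [Fintype.card_fin, Fintype.card_sum, Fintype.card_coe] at h5
  omega

/-- the number of scalar gates: for every unit `a` modulo `n` and every set `T` of residues
meeting all orbits of multiplication by `a` -/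
theorem general_aux (n : ℕ) (K : Type) [Field K] [Algebra ℚ K]
    [IsCyclotomicExtension {n} ℚ K] (C : List Gate) (hn : 2 ≤ n)
    (hout : ∀ j : Fin n, ∃ p : ℕ, (forms n C).getD p 0 = fourier n j)
    (a : ℕ) (ha : a.Coprime n) (T : Finset ℕ)
    (hT : ∀ r < n, ∃ t ∈ T, t < n ∧ ∃ k : ℕ, r = (a ^ k * t) % n) :
    n ≤ 2 * muls C + T.card := by
  classical
  have hne : NeZero n := ⟨by omega⟩
  obtain ⟨S, hS, hrun⟩ := RZ.run C
    (0 :: List.ofFn (fun i : Fin n => (Pi.single i 1 : Fin n → ℂ))) ∅ (by
      intro v hv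
      rcases List.mem_cons.1 hv with rfl | hv
      · exact RZ.zero _
      · obtain ⟨i, rfl⟩ := List.mem_ofFn.1 hv
        refine ⟨Pi.single i 1, 0, Submodule.zero_mem _, fun j => ?_⟩
        by_cases hij : j = i
        · subst hij; simp
        · simp [Pi.single_eq_of_ne hij])
  rw [Finset.card_empty, zero_add] at hS
  have hrow : ∀ r : ℕ, ∃ A : Fin n → ℤ, r < n →
      (fun j : Fin n => SCAL.row n r j - (A j : ℂ)) ∈
        Submodule.span ℂ (S : Set (Fin n → ℂ)) := by
    intro r
    by_cases hr : r < n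
    · obtain ⟨p, hp⟩ := hout ⟨r, hr⟩
      obtain ⟨A, w, hw, he⟩ := RZ.getD hrun p
      refine ⟨A, fun _ => ?_⟩
      have h2 : (fun j : Fin n => SCAL.row n r j - (A j : ℂ)) = w := by
        ext j
        have h3 : (run (0 :: List.ofFn (fun i : Fin n => (Pi.single i 1 : Fin n → ℂ))) C).getD p 0 =
          fourier n ⟨r, hr⟩ := hp
        have h4 := he j
        rw [h3, ← SCAL.row_eq ⟨r, hr⟩ j] at h4
        simp only at h4
        rw [h4]
        ring
      rw [h2]
      exact hw
    · exact ⟨0, fun h => absurd h hr⟩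
  choose A hA using hrow
  have halg : Algebra.IsAlgebraic ℚ K := by
    have := IsCyclotomicExtension.finiteDimensional {n} ℚ K
    exact Algebra.IsAlgebraic.of_finite ℚ K
  let φ : K →ₐ[ℚ] ℂ := IsAlgClosed.lift
  let _inst : Algebra K ℂ := φ.toRingHom.toAlgebra
  have hφ : ∀ x : K, algebraMap K ℂ x = φ x := fun x => rfl
  have hζ := IsCyclotomicExtension.zeta_spec n ℚ K
  have hμ : IsPrimitiveRoot (φ (IsCyclotomicExtension.zeta n ℚ K)) n :=
    hζ.map_of_injective φ.injective
  have hexp := SCAL.prim (n := n) (by omega)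
  obtain ⟨i, hi, hie⟩ := hμ.eq_pow_of_pow_eq_one hexp.pow_eq_one
  let z : K := IsCyclotomicExtension.zeta n ℚ K ^ i
  have hz : φ z = Complex.exp (2 * Real.pi * Complex.I / n) := by
    simp only [z]
    rw [map_pow, hie]
  have hzp : IsPrimitiveRoot z n := by
    refine IsPrimitiveRoot.of_map_of_injective (f := φ) ?_ φ.injective
    rw [hz]; exact hexp
  have hirr := Polynomial.cyclotomic.irreducible_rat (n := n) (by omega)
  have hap : IsPrimitiveRoot (IsCyclotomicExtension.zeta n ℚ K ^ a) n :=
    hζ.pow_of_coprime a ha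
  let σ : K ≃ₐ[ℚ] K := IsCyclotomicExtension.fromZetaAut hap hirr
  have hσ : σ z = z ^ a := by
    simp only [z, σ]
    rw [map_pow, IsCyclotomicExtension.fromZetaAut_spec, ← pow_mul, ← pow_mul, mul_comm]
  refine core hzp (σ : K →+* K) a hσ S hS A ?_ T hT
  intro r hr
  have h1 := hA r hr
  have h2 : (fun j : Fin n => algebraMap K ℂ (z ^ (r * (j : ℕ)) - (A r j : K))) =
      fun j : Fin n => SCAL.row n r j - (A r j : ℂ) := by
    ext j
    rw [map_sub, map_pow, hφ z, hz, map_intCast]
    rfl
  rw [h2]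
  exact h1

/-- the number of scalar gates: for every unit `a` modulo `n` and every set `T` of residues
meeting all orbits of multiplication by `a` -/
theorem general (n : ℕ) (C : List Gate) (hn : 2 ≤ n)
    (hout : ∀ j : Fin n, ∃ p : ℕ, (forms n C).getD p 0 = fourier n j)
    (a : ℕ) (ha : a.Coprime n) (T : Finset ℕ)
    (hT : ∀ r < n, ∃ t ∈ T, t < n ∧ ∃ k : ℕ, r = (a ^ k * t) % n) :
    n ≤ 2 * muls C + T.card := by
  have hne : NeZero n := ⟨by omega⟩
  have hnq : NeZero ((n : ℕ) : ℚ) := ⟨by exact_mod_cast hne.ne⟩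
  exact @general_aux n (CyclotomicField n ℚ) _ (CyclotomicField.algebra n ℚ)
    (CyclotomicField.isCyclotomicExtension n ℚ) C hn hout a ha T hT

/-- for prime `n` at least `(n - 2) / 2` scalar gates -/
theorem thm : ∀ (n : ℕ) (C : List Gate), n.Prime →
    (∀ j : Fin n, ∃ p : ℕ, (forms n C).getD p 0 = fourier n j) → n ≤ 2 * muls C + 2 := by
  intro n C hn hout
  classical
  have hfact : Fact n.Prime := ⟨hn⟩
  obtain ⟨g, hg⟩ := IsCyclic.exists_generator (α := (ZMod n)ˣ)
  have hT : ∀ r < n, ∃ t ∈ ({0, 1} : Finset ℕ), t < n ∧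
      ∃ k : ℕ, r = ((g : ZMod n).val ^ k * t) % n := by
    intro r hr
    by_cases h0 : r = 0
    · exact ⟨0, by simp, hn.pos, 0, by simp [h0]⟩
    · have hne : (r : ZMod n) ≠ 0 := by
        intro h
        rw [ZMod.natCast_eq_zero_iff] at h
        exact h0 (Nat.eq_zero_of_dvd_of_lt h hr)
      obtain ⟨k, hk⟩ := (mem_powers_iff_mem_zpowers.2 (hg (Units.mk0 (r : ZMod n) hne)))
      refine ⟨1, by simp, hn.one_lt, k, ?_⟩
      have h1 := congrArg (fun u : (ZMod n)ˣ => (u : ZMod n)) hk
      simp only [Units.val_pow_eq_pow_val, Units.val_mk0] at h1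
      have h2 : (((g : ZMod n).val ^ k * 1 : ℕ) : ZMod n) = (r : ZMod n) := by
        push_cast
        rw [ZMod.natCast_zmod_val, mul_one, h1]
      rw [ZMod.natCast_eq_natCast_iff'] at h2
      rw [h2, Nat.mod_eq_of_lt hr]
  have h := general n C hn.two_le hout (g : ZMod n).val (ZMod.val_coe_unit_coprime g) {0, 1} hT
  simpa using h

end Vale.P344.GAL
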