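import Vale.Agent.P344.Defs

/-! NF: normal form of a circuit. -/

namespace Vale.P344.NF

open Vale.P344

theorem getD_snoc {α : Type} (l : List α) (v d : α) (p : ℕ) :
    (l ++ [v]).getD p d = l.getD p d ∨ (l ++ [v]).getD p d = v := by
  rcases lt_trichotomy p l.length with h | h | h
  · left
    rw [List.getD_append _ _ _ _ h]
  · right
    subst h
    rw [List.getD_append_right _ _ _ _ le_rfl]
    simp
  · left
    rw [List.getD_append_right _ _ _ _ h.le, List.getD_eq_default _ _ h.le]
    apply List.getD_eq_default
    simp only [List.length_cons, List.length_nil]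
    omega

theorem av_cons {n : ℕ} {L : List (Fin n → ℂ)} {g u : Fin n → ℂ}
    (h : Av Finset.univ L u) : Av Finset.univ (g :: L) u := by
  rcases h with h | h
  · exact Or.inl (List.mem_cons_of_mem _ h)
  · exact Or.inr h

theorem main {n : ℕ} (C : List Gate) : ∀ (init L : List (Fin n → ℂ)), Valid Finset.univ L →
    (∀ p : ℕ, ∃ u, Av Finset.univ L u ∧ Mul Finset.univ (init.getD p 0) u) →
    ∃ L' : List (Fin n → ℂ), Valid Finset.univ L' ∧ L'.length = L.length + adds C ∧
      ∀ p : ℕ, ∃ u, Av Finset.univ L' u ∧ Mul Finset.univ ((run init C).getD p 0) u := by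
  induction C with
  | nil =>
    intro init L hL h
    exact ⟨L, hL, rfl, h⟩
  | cons g C ih =>
    intro init L hL h
    have key : ∀ x : Fin n → ℂ, ∀ a b : ℂ, ∀ i j : ℕ,
        x = a • init.getD i 0 + b • init.getD j 0 →
        ∃ L' : List (Fin n → ℂ), Valid Finset.univ L' ∧ L'.length = L.length + (adds C + 1) ∧
          ∀ p : ℕ, ∃ u, Av Finset.univ L' u ∧
            Mul Finset.univ ((run (init ++ [x]) C).getD p 0) u := by
      intro x a b i j hx
      obtain ⟨u, hu, c, hc⟩ := h i
      obtain ⟨v, hv, d, hd⟩ := h j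
      have hV : Valid Finset.univ (x :: L) := by
        refine Valid.cons x L u v (a * c) (b * d) hL hu hv ?_
        intro k hk
        rw [hx]
        simp only [Pi.add_apply, Pi.smul_apply, smul_eq_mul]
        rw [hc k hk, hd k hk]
        ring
      obtain ⟨L', h1, h2, h3⟩ := ih (init ++ [x]) (x :: L) hV (by
        intro p
        rcases getD_snoc init x 0 p with e | e
        · rw [e]
          obtain ⟨u, hu, hm⟩ := h p
          exact ⟨u, av_cons hu, hm⟩
        · rw [e]
          exact ⟨x, Or.inl List.mem_cons_self, 1, fun k _ => (one_mul _).symm⟩)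
      refine ⟨L', h1, ?_, h3⟩
      rw [h2, List.length_cons]
      omega
    cases g with
    | add i j =>
      exact key _ 1 1 i j (by simp [Gate.eval])
    | sub i j =>
      exact key _ 1 (-1) i j (by simp [Gate.eval, sub_eq_add_neg])
    | smul a i =>
      obtain ⟨L', h1, h2, h3⟩ := ih (init ++ [a • init.getD i 0]) L hL (by
        intro p
        rcases getD_snoc init (a • init.getD i 0) 0 p with e | e
        · rw [e]
          exact h p
        · rw [e]
          obtain ⟨u, hu, c, hc⟩ := h i
          refine ⟨u, hu, a * c, fun k hk => ?_⟩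
          simp only [Pi.smul_apply, smul_eq_mul]
          rw [hc k hk]
          ring)
      exact ⟨L', h1, h2, h3⟩

theorem thm : StmtNF := by
  intro n C hn
  obtain ⟨L', h1, h2, h3⟩ := main (n := n) C
    (0 :: List.ofFn (fun i : Fin n => (Pi.single i 1 : Fin n → ℂ))) [] Valid.nil (by
      intro p
      have h0 : ∃ u, Av (Finset.univ : Finset (Fin n)) [] u ∧ Mul Finset.univ 0 u :=
        ⟨Pi.single ⟨0, hn⟩ 1, Or.inr ⟨_, Finset.mem_univ _, rfl⟩, 0, fun k _ => by simp⟩
      rcases p with _ | p
      · exact h0
      · rw [List.getD_cons_succ]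
        by_cases hp : p < n
        · have e : (List.ofFn (fun i : Fin n => (Pi.single i 1 : Fin n → ℂ))).getD p 0 =
              Pi.single ⟨p, hp⟩ 1 := by
            rw [List.getD_eq_getElem _ _ (by simpa using hp)]
            simp
          rw [e]
          exact ⟨Pi.single ⟨p, hp⟩ 1, Or.inr ⟨_, Finset.mem_univ _, rfl⟩, 1,
            fun k _ => (one_mul _).symm⟩
        · rw [List.getD_eq_default _ _ (by simpa using hp)]
          exact h0)
  exact ⟨L', h1, by simpa using h2, h3⟩

end Vale.P344.NF
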