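import Mathlib
import Vale.Agent.P344.Defs
import Vale.Agent.P344.GAL

open Vale.P344

namespace Vale.P344.POW2

theorem five_pow (i : ℕ) : ∃ c : ℕ, 5 ^ (2 ^ i) = 1 + 2 ^ (i + 2) * (2 * c + 1) := by
  induction i with
  | zero => exact ⟨0, by norm_num⟩
  | succ i ih =>
    obtain ⟨c, hc⟩ := ih
    refine ⟨c + 2 ^ i * (2 * c + 1) ^ 2, ?_⟩
    rw [pow_succ, pow_mul, hc]
    ring

theorem step {m u w : ℕ} (hw : w % 2 = 1) (h : u ≡ w [MOD 2 ^ (m + 2)]) :
    u ≡ w [MOD 2 ^ (m + 3)] ∨ u ≡ 5 ^ (2 ^ m) * w [MOD 2 ^ (m + 3)] := by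
  rw [Nat.modEq_iff_dvd] at h
  obtain ⟨q, hq⟩ := h
  obtain ⟨c, hc⟩ := five_pow m
  obtain ⟨s, hs⟩ : ∃ s, w = 2 * s + 1 := ⟨w / 2, by omega⟩
  push_cast at hq
  rcases Int.even_or_odd q with ⟨r, hr⟩ | ⟨r, hr⟩
  · left
    rw [Nat.modEq_iff_dvd]
    refine ⟨r, ?_⟩
    rw [hq, hr]
    push_cast
    ring
  · right
    rw [Nat.modEq_iff_dvd, hc]
    refine ⟨r + 2 * s * c + s + c + 1, ?_⟩
    push_cast
    have h1 : (u : ℤ) = w - 2 ^ (m + 2) * q := by linarith
    rw [h1, hr, hs]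
    push_cast
    ring

/-- every odd number is `5^j` or `5^j * 3` modulo `2^m` -/
theorem odd_rep (m : ℕ) : ∀ u : ℕ, u % 2 = 1 →
    ∃ j : ℕ, u ≡ 5 ^ j * 1 [MOD 2 ^ m] ∨ u ≡ 5 ^ j * 3 [MOD 2 ^ m] := by
  have odd5 : ∀ j : ℕ, 5 ^ j % 2 = 1 := fun j => by
    rw [Nat.pow_mod]; norm_num
  induction m with
  | zero => intro u _; exact ⟨0, Or.inl (by rw [pow_zero]; exact Nat.modEq_one)⟩
  | succ m ih =>
    intro u hu
    match m, ih with
    | 0, _ =>
      refine ⟨0, Or.inl ?_⟩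
      show u % 2 ^ 1 = (5 ^ 0 * 1) % 2 ^ 1
      norm_num
      exact hu
    | 1, _ =>
      refine ⟨0, ?_⟩
      have h4 : u % 4 = 1 ∨ u % 4 = 3 := by omega
      rcases h4 with h4 | h4
      · left
        show u % 2 ^ 2 = (5 ^ 0 * 1) % 2 ^ 2
        norm_num
        exact h4
      · right
        show u % 2 ^ 2 = (5 ^ 0 * 3) % 2 ^ 2
        norm_num
        exact h4
    | m + 2, ih =>
      obtain ⟨j, hj | hj⟩ := ih u hu
      · rcases step (by rw [mul_one]; exact odd5 j) hj with h | h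
        · exact ⟨j, Or.inl h⟩
        · refine ⟨2 ^ m + j, Or.inl ?_⟩
          rw [pow_add 5, mul_assoc]
          exact h
      · rcases step (by rw [Nat.mul_mod, odd5 j]) hj with h | h
        · exact ⟨j, Or.inr h⟩
        · refine ⟨2 ^ m + j, Or.inr ?_⟩
          rw [pow_add 5, mul_assoc]
          exact h

/-- powers of two: at least `n / 2 - k` scalar gates for `n = 2^k` -/
theorem thm : ∀ (k : ℕ) (C : List Gate), 1 ≤ k →
    (∀ j : Fin (2 ^ k), ∃ p : ℕ, (forms (2 ^ k) C).getD p 0 = fourier (2 ^ k) j) →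
    2 ^ k ≤ 2 * muls C + 2 * k := by
  intro k C hk hout
  classical
  have hn : 2 ≤ 2 ^ k := by
    calc 2 = 2 ^ 1 := by norm_num
      _ ≤ 2 ^ k := Nat.pow_le_pow_right (by norm_num) hk
  let T : Finset ℕ := {0} ∪ ((Finset.range k).image (fun i => 2 ^ i) ∪
    (Finset.range (k - 1)).image (fun i => (3 * 2 ^ i) % 2 ^ k))
  have hcard : T.card ≤ 2 * k := by
    have h1 := Finset.card_union_le ({0} : Finset ℕ) ((Finset.range k).image (fun i => 2 ^ i) ∪
      (Finset.range (k - 1)).image (fun i => (3 * 2 ^ i) % 2 ^ k))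
    have h2 := Finset.card_union_le ((Finset.range k).image (fun i => 2 ^ i))
      ((Finset.range (k - 1)).image (fun i => (3 * 2 ^ i) % 2 ^ k))
    have h3 : ((Finset.range k).image (fun i => 2 ^ i)).card ≤ k := by
      simpa using Finset.card_image_le (s := Finset.range k) (f := fun i => 2 ^ i)
    have h4 : ((Finset.range (k - 1)).image (fun i => (3 * 2 ^ i) % 2 ^ k)).card ≤ k - 1 := by
      simpa using Finset.card_image_le (s := Finset.range (k - 1))
        (f := fun i => (3 * 2 ^ i) % 2 ^ k)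
    have h5 : ({0} : Finset ℕ).card = 1 := Finset.card_singleton 0
    show T.card ≤ 2 * k
    simp only [T]
    omega
  have hT : ∀ r < 2 ^ k, ∃ t ∈ T, t < 2 ^ k ∧ ∃ j : ℕ, r = (5 ^ j * t) % 2 ^ k := by
    intro r hr
    by_cases h0 : r = 0
    · exact ⟨0, by simp [T], by omega, 0, by simp [h0]⟩
    · obtain ⟨i, u, hu, hru⟩ := Nat.exists_eq_two_pow_mul_odd h0
      have hu2 : u % 2 = 1 := Nat.odd_iff.1 hu
      have hik : i < k := by
        by_contra hc
        have h1 : 2 ^ k ≤ 2 ^ i := Nat.pow_le_pow_right (by norm_num) (by omega)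
        have h2 : 2 ^ i * 1 ≤ 2 ^ i * u := Nat.mul_le_mul_left _ (by omega)
        omega
      have hpow : 2 ^ k = 2 ^ i * 2 ^ (k - i) := by
        rw [← pow_add]; congr 1; omega
      have hfin : ∀ w : ℕ, u ≡ w [MOD 2 ^ (k - i)] → r = (2 ^ i * w) % 2 ^ k := by
        intro w hw
        have h1 : 2 ^ i * u ≡ 2 ^ i * w [MOD 2 ^ i * 2 ^ (k - i)] := Nat.ModEq.mul_left' _ hw
        rw [← hpow, ← hru] at h1
        have h2 : r % 2 ^ k = (2 ^ i * w) % 2 ^ k := h1
        rw [Nat.mod_eq_of_lt hr] at h2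
        exact h2
      have hlt : 2 ^ i < 2 ^ k := Nat.pow_lt_pow_right (by norm_num) hik
      have hmem1 : 2 ^ i ∈ T := by
        simp only [T, Finset.mem_union, Finset.mem_image, Finset.mem_range]
        exact Or.inr (Or.inl ⟨i, hik, rfl⟩)
      by_cases hlast : i = k - 1
      · refine ⟨2 ^ i, hmem1, hlt, 0, ?_⟩
        have h1 : u ≡ 1 [MOD 2 ^ (k - i)] := by
          have : k - i = 1 := by omega
          rw [this, pow_one]
          exact hu2
        have h2 := hfin 1 h1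
        rw [pow_zero, one_mul]
        rw [mul_one] at h2
        exact h2
      · obtain ⟨j, hj | hj⟩ := odd_rep (k - i) u hu2
        · refine ⟨2 ^ i, hmem1, hlt, j, ?_⟩
          rw [hfin _ hj]
          congr 1
          ring
        · refine ⟨(3 * 2 ^ i) % 2 ^ k, ?_, Nat.mod_lt _ (by omega), j, ?_⟩
          · simp only [T, Finset.mem_union, Finset.mem_image, Finset.mem_range]
            exact Or.inr (Or.inr ⟨i, by omega, rfl⟩)
          · rw [hfin _ hj, Nat.mul_mod_mod]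
            congr 1
            ring
  have h := GAL.general (2 ^ k) C hn hout 5
    (Nat.Coprime.pow_right k (by norm_num)) T hT
  omega

end Vale.P344.POW2
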