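import Vale.Agent.P344.Defs

namespace Vale.P344.ROWS

open Finset

theorem fourier_ne (n : ℕ) (j k : Fin n) : fourier n j k ≠ 0 := Complex.exp_ne_zero _

/-- Equality of the two products of a minor. -/
theorem minor (n : ℕ) (j j' i i' : Fin n)
    (h : fourier n j i * fourier n j' i' = fourier n j i' * fourier n j' i) :
    (n : ℤ) ∣ (((j : ℕ) : ℤ) - ((j' : ℕ) : ℤ)) * (((i : ℕ) : ℤ) - ((i' : ℕ) : ℤ)) := by
  have hn : (n : ℂ) ≠ 0 := by
    have : 0 < n := lt_of_le_of_lt (Nat.zero_le _) j.2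
    exact_mod_cast this.ne'
  unfold fourier at h
  rw [← Complex.exp_add, ← Complex.exp_add, Complex.exp_eq_exp_iff_exists_int] at h
  obtain ⟨m, hm⟩ := h
  refine ⟨m, ?_⟩
  have hpi : (2 * Real.pi * Complex.I : ℂ) ≠ 0 := Complex.two_pi_I_ne_zero
  have h2 : (((j : ℕ) : ℂ) - ((j' : ℕ) : ℂ)) * (((i : ℕ) : ℂ) - ((i' : ℕ) : ℂ)) - n * m = 0 := by
    field_simp at hm
    linear_combination hm
  have h3 : (((((j : ℕ) : ℤ) - ((j' : ℕ) : ℤ)) * (((i : ℕ) : ℤ) - ((i' : ℕ) : ℤ)) : ℤ) : ℂ)
      = (((n : ℤ) * m : ℤ) : ℂ) := by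
    push_cast
    linear_combination h2
  exact_mod_cast h3

/-- Rows of the Fourier matrix which are proportional are equal. -/
theorem row_inj (n : ℕ) (hn : 2 ≤ n) (j j' : Fin n)
    (h : ∀ i i' : Fin n, fourier n j i * fourier n j' i' = fourier n j i' * fourier n j' i) :
    j = j' := by
  have h1 := minor n j j' ⟨1, by omega⟩ ⟨0, by omega⟩ (h _ _)
  have h2 : (n : ℤ) ∣ ((j : ℕ) : ℤ) - ((j' : ℕ) : ℤ) := by
    have h3 : (((j : ℕ) : ℤ) - ((j' : ℕ) : ℤ)) *
        ((((⟨1, by omega⟩ : Fin n) : ℕ) : ℤ) - (((⟨0, by omega⟩ : Fin n) : ℕ) : ℤ)) =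
        ((j : ℕ) : ℤ) - ((j' : ℕ) : ℤ) := by simp
    rwa [h3] at h1
  obtain ⟨c, hc⟩ := h2
  have hj := j.2
  have hj' := j'.2
  have hc0 : c = 0 := by
    by_contra hne
    rcases lt_or_gt_of_ne hne with hlt | hgt
    · have : (n : ℤ) * c ≤ (n : ℤ) * (-1) := by
        apply mul_le_mul_of_nonneg_left (by omega) (by omega)
      omega
    · have : (n : ℤ) * 1 ≤ (n : ℤ) * c := by
        apply mul_le_mul_of_nonneg_left (by omega) (by omega)
      omega
  rw [hc0, mul_zero] at hc
  apply Fin.ext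
  omega

/-- Number of rows in one class. -/
theorem class_card (n : ℕ) (hn : 2 ≤ n) (R : Finset (Fin n)) (i i' : Fin n) (hii : i ≠ i')
    (h : ∀ r ∈ R, ∀ r' ∈ R,
      (n : ℤ) ∣ (((r : ℕ) : ℤ) - ((r' : ℕ) : ℤ)) * (((i : ℕ) : ℤ) - ((i' : ℕ) : ℤ))) :
    R.card ≤ n / n.minFac := by
  set d : ℕ := (((i : ℕ) : ℤ) - ((i' : ℕ) : ℤ)).natAbs with hd
  have hi := i.2
  have hi' := i'.2
  have hne : (i : ℕ) ≠ (i' : ℕ) := fun e => hii (Fin.ext e)
  have hd0 : 0 < d := by omega
  have hdn : d < n := by omega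
  set g : ℕ := Nat.gcd n d with hg
  have hg0 : 0 < g := Nat.gcd_pos_of_pos_right _ hd0
  have hgn : g ∣ n := Nat.gcd_dvd_left _ _
  have hgd : g ∣ d := Nat.gcd_dvd_right _ _
  have hgle : g ≤ d := Nat.le_of_dvd hd0 hgd
  obtain ⟨q, hq⟩ := hgn
  have hq1 : q ≠ 1 := by
    rintro rfl
    omega
  have hq0 : 0 < q := by
    rcases Nat.eq_zero_or_pos q with h0 | h0
    · rw [h0] at hq; omega
    · exact h0
  have hqn : q ∣ n := ⟨g, by rw [hq]; ring⟩
  have hmf : n.minFac ≤ q := Nat.minFac_le_of_dvd (by omega) hqn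
  have hdivle : n / q ≤ n / n.minFac := Nat.div_le_div_left hmf (Nat.minFac_pos n)
  refine le_trans ?_ hdivle
  -- all members of `R` are congruent mod `q`
  have hcong : ∀ r ∈ R, ∀ r' ∈ R, (r : ℕ) % q = (r' : ℕ) % q := by
    intro r hr r' hr'
    have h1 := h r hr r' hr'
    have h2 : n ∣ (((r : ℕ) : ℤ) - ((r' : ℕ) : ℤ)).natAbs * d := by
      have h3 := Int.natAbs_dvd_natAbs.2 h1
      rw [Int.natAbs_mul] at h3
      simpa using h3
    have h4 : q ∣ (((r : ℕ) : ℤ) - ((r' : ℕ) : ℤ)).natAbs := by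
      obtain ⟨e, he⟩ := hgd
      have hcop : Nat.Coprime q e := by
        have h5 : Nat.gcd (g * q) (g * e) = g := by rw [← hq, ← he]
        rw [Nat.gcd_mul_left] at h5
        have h6 : g * Nat.gcd q e = g * 1 := by rw [h5, mul_one]
        exact Nat.eq_of_mul_eq_mul_left hg0 h6
      have h7 : g * q ∣ g * ((((r : ℕ) : ℤ) - ((r' : ℕ) : ℤ)).natAbs * e) := by
        rw [← hq]
        have h8 : g * ((((r : ℕ) : ℤ) - ((r' : ℕ) : ℤ)).natAbs * e)
            = (((r : ℕ) : ℤ) - ((r' : ℕ) : ℤ)).natAbs * d := by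
          rw [he]; ring
        rw [h8]
        exact h2
      have h9 := Nat.dvd_of_mul_dvd_mul_left hg0 h7
      exact hcop.dvd_of_dvd_mul_right h9
    have h10 : (q : ℤ) ∣ (((r : ℕ) : ℤ) - ((r' : ℕ) : ℤ)) := Int.natCast_dvd.2 h4
    have h11 : (r' : ℕ) ≡ (r : ℕ) [MOD q] := (Nat.modEq_iff_dvd).2 h10
    exact h11.symm
  calc R.card ≤ (Finset.range (n / q)).card := by
        apply Finset.card_le_card_of_injOn (fun r : Fin n => (r : ℕ) / q)
        · intro r _
          simp only [Finset.coe_range, Set.mem_Iio]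
          have hr2 := r.2
          have hqn2 : n / q = g := by
            rw [hq]; exact Nat.mul_div_cancel _ hq0
          rw [hqn2]
          exact (Nat.div_lt_iff_lt_mul hq0).2 (by omega)
        · intro r hr r' hr' he
          have h1 := hcong r hr r' hr'
          apply Fin.ext
          have he' : (r : ℕ) / q = (r' : ℕ) / q := he
          calc (r : ℕ) = q * ((r : ℕ) / q) + (r : ℕ) % q := (Nat.div_add_mod _ _).symm
            _ = q * ((r' : ℕ) / q) + (r' : ℕ) % q := by rw [he', h1]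
            _ = (r' : ℕ) := Nat.div_add_mod _ _
    _ = n / q := Finset.card_range _

theorem valid_suffix {n : ℕ} (J : Finset (Fin n)) (L₁ L₂ : List (Fin n → ℂ))
    (h : Valid J (L₁ ++ L₂)) : Valid J L₂ := by
  induction L₁ with
  | nil => exact h
  | cons g L ih =>
    cases h with
    | cons _ _ u v a b h1 _ _ _ => exact ih h1

open Classical in
/-- The rows which are multiples of forms available from the list. -/
noncomputable def rows (n : ℕ) (L : List (Fin n → ℂ)) : Finset (Fin n) :=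
  univ.filter fun j => ∃ u, Av univ L u ∧ Mul univ (fourier n j) u

theorem mem_rows (n : ℕ) (L : List (Fin n → ℂ)) (j : Fin n) :
    j ∈ rows n L ↔ ∃ u, Av univ L u ∧ Mul univ (fourier n j) u := by
  simp [rows]

theorem rows_step (n : ℕ) (hn : 2 ≤ n) (g : Fin n → ℂ) (L : List (Fin n → ℂ)) :
    (rows n (g :: L)).card ≤ (rows n L).card + 1 := by
  classical
  have hsub : rows n (g :: L) ⊆ rows n L ∪ (rows n (g :: L) \ rows n L) := by
    intro j hj
    by_cases h : j ∈ rows n L
    · exact Finset.mem_union_left _ h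
    · exact Finset.mem_union_right _ (Finset.mem_sdiff.2 ⟨hj, h⟩)
  have hone : (rows n (g :: L) \ rows n L).card ≤ 1 := by
    rw [Finset.card_le_one]
    have key : ∀ j ∈ rows n (g :: L) \ rows n L, ∃ c : ℂ, ∀ i, fourier n j i = c * g i := by
      intro j hj
      rw [Finset.mem_sdiff, mem_rows, mem_rows] at hj
      obtain ⟨⟨u, hu, hm⟩, hno⟩ := hj
      rcases hu with hu | ⟨i, hi, hu⟩
      · rcases List.mem_cons.1 hu with rfl | hu
        · obtain ⟨c, hc⟩ := hm
          exact ⟨c, fun i => hc i (Finset.mem_univ i)⟩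
        · exact absurd ⟨u, Or.inl hu, hm⟩ hno
      · exact absurd ⟨u, Or.inr ⟨i, hi, hu⟩, hm⟩ hno
    intro j hj j' hj'
    obtain ⟨c, hc⟩ := key j hj
    obtain ⟨c', hc'⟩ := key j' hj'
    apply row_inj n hn
    intro i i'
    rw [hc, hc', hc, hc']
    ring
  calc (rows n (g :: L)).card ≤ (rows n L ∪ (rows n (g :: L) \ rows n L)).card :=
        Finset.card_le_card hsub
    _ ≤ (rows n L).card + (rows n (g :: L) \ rows n L).card := Finset.card_union_le _ _
    _ ≤ (rows n L).card + 1 := by omega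

theorem rows_append (n : ℕ) (hn : 2 ≤ n) (L₁ L₂ : List (Fin n → ℂ)) :
    (rows n (L₁ ++ L₂)).card ≤ (rows n L₂).card + L₁.length := by
  induction L₁ with
  | nil => simp
  | cons g L ih =>
    have h := rows_step n hn g (L ++ L₂)
    simp only [List.cons_append, List.length_cons]
    omega

theorem few_rows (h : StmtELIM) (n : ℕ) (hn : 2 ≤ n) (L : List (Fin n → ℂ))
    (hv : Valid univ L) (hl : L.length ≤ 2 * n - 3) : (rows n L).card ≤ n / n.minFac := by
  by_contra hcon
  have h1 := h n univ L {o | ∃ j ∈ rows n L, o = fourier n j} ⟨⟨0, by omega⟩, Finset.mem_univ _⟩ hv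
    (by
      rintro o ⟨j, hj, rfl⟩
      exact (mem_rows n L j).1 hj)
    (by
      rintro o ⟨j, hj, rfl⟩ i _
      exact fourier_ne n j i)
    (by
      intro i _ i' _ hii
      by_contra hno
      apply hcon
      apply class_card n hn _ i i' hii
      intro r hr r' hr'
      apply minor
      by_contra hne
      exact hno ⟨_, ⟨r, hr, rfl⟩, _, ⟨r', hr', rfl⟩, hne⟩)
  rw [Finset.card_univ, Fintype.card_fin] at h1
  omega

theorem thm (h : StmtELIM) : StmtROWS := by
  intro n L hn hv hrows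
  have hfull : (rows n L).card = n := by
    have : rows n L = univ := by
      ext j
      simp only [Finset.mem_univ, iff_true]
      exact (mem_rows n L j).2 (hrows j)
    rw [this, Finset.card_univ, Fintype.card_fin]
  have hdiv : n / n.minFac < n := by
    apply Nat.div_lt_self (by omega)
    have := (Nat.minFac_prime (n := n) (by omega)).two_le
    omega
  by_cases hl : L.length ≤ 2 * n - 3
  · have := few_rows h n hn L hv hl
    omega
  · have hsplit : L.take (L.length - (2 * n - 3)) ++ L.drop (L.length - (2 * n - 3)) = L :=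
      List.take_append_drop _ _
    have hv2 : Valid univ (L.drop (L.length - (2 * n - 3))) := by
      apply valid_suffix univ (L.take (L.length - (2 * n - 3)))
      rw [hsplit]
      exact hv
    have h1 := few_rows h n hn _ hv2 (by rw [List.length_drop]; omega)
    have h2 := rows_append n hn (L.take (L.length - (2 * n - 3)))
      (L.drop (L.length - (2 * n - 3)))
    rw [hsplit, hfull, List.length_take] at h2
    omega

end Vale.P344.ROWS
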